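import Vale.Agent.Lib.P123.helper28.FixD

/-!
P123 (Crouzeix), helper28: piece (A) of helper41's theorem on `A = V* + γ V`.
If `V` is a non-unitary isometry, then every point `ζ + γ conj ζ` (`‖ζ‖ = 1`) is a limit of points
`⟪x, A x⟫` with `‖x‖ = 1`; so a bound for a polynomial on the numerical range of `A` passes to this
curve.
-/

namespace Vale.Agent.Lib.P123.H28

open ContinuousLinearMap Filter Topology
open scoped ComplexConjugate

variable {H : Type*} [NormedAddCommGroup H] [InnerProductSpace ℂ H] [CompleteSpace H]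

/-- A unit vector in the kernel of `V*`, for a non-unitary isometry `V`. -/
theorem exists_unit_ker (V : H →L[ℂ] H) (hV : adjoint V * V = 1) (hnu : V * adjoint V ≠ 1) :
    ∃ e : H, ‖e‖ = 1 ∧ adjoint V e = 0 := by
  have hex : ∃ x : H, (1 - V * adjoint V) x ≠ 0 := by
    by_contra hcon
    apply hnu
    ext x
    have hx : (1 - V * adjoint V) x = 0 := by
      by_contra h
      exact hcon ⟨x, h⟩
    have hx' : x - V (adjoint V x) = 0 := by simpa using hx
    simp only [mul_apply_eq_comp, one_apply_eq_self]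
    exact (sub_eq_zero.mp hx').symm
  obtain ⟨x, hx⟩ := hex
  have hn : ‖(1 - V * adjoint V) x‖ ≠ 0 := norm_ne_zero_iff.mpr hx
  refine ⟨((‖(1 - V * adjoint V) x‖⁻¹ : ℝ) : ℂ) • (1 - V * adjoint V) x, ?_, ?_⟩
  · rw [norm_smul, Complex.norm_real, norm_inv, norm_norm, inv_mul_cancel₀ hn]
  · rw [map_smul]
    have h0 := congrArg (fun T : H →L[ℂ] H => T x) (adjoint_mul_proj V hV)
    simp only [mul_apply_eq_comp, zero_apply] at h0
    rw [h0, smul_zero]

/-- The orbit `u k = V^k e`. -/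
noncomputable def orbit (V : H →L[ℂ] H) (e : H) : ℕ → H
  | 0 => e
  | k + 1 => V (orbit V e k)

theorem adjoint_orbit_succ (V : H →L[ℂ] H) (hV : adjoint V * V = 1) (e : H) (k : ℕ) :
    adjoint V (orbit V e (k + 1)) = orbit V e k := by
  have := congrArg (fun T : H →L[ℂ] H => T (orbit V e k)) hV
  simpa [orbit] using this

theorem inner_orbit_self (V : H →L[ℂ] H) (hV : adjoint V * V = 1) (e : H) (he : ‖e‖ = 1)
    (k : ℕ) : inner ℂ (orbit V e k) (orbit V e k) = 1 := by
  induction k with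
  | zero =>
    rw [orbit, inner_self_eq_norm_sq_to_K, he]
    simp
  | succ k ih => rw [orbit, inner_map_map V hV, ih]

theorem inner_orbit_add (V : H →L[ℂ] H) (hV : adjoint V * V = 1) (e : H)
    (he0 : adjoint V e = 0) (j d : ℕ) :
    inner ℂ (orbit V e j) (orbit V e (j + d + 1)) = 0 := by
  induction j with
  | zero =>
    rw [show 0 + d + 1 = d + 1 by omega]
    show inner ℂ e (V (orbit V e d)) = 0
    rw [← adjoint_inner_left, he0, inner_zero_left]
  | succ j ih =>
    rw [show j + 1 + d + 1 = (j + d + 1) + 1 by omega]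
    show inner ℂ (V (orbit V e j)) (V (orbit V e (j + d + 1))) = 0
    rw [inner_map_map V hV, ih]

theorem inner_orbit (V : H →L[ℂ] H) (hV : adjoint V * V = 1) (e : H) (he : ‖e‖ = 1)
    (he0 : adjoint V e = 0) (j k : ℕ) :
    inner ℂ (orbit V e j) (orbit V e k) = if j = k then 1 else 0 := by
  rcases lt_trichotomy j k with h | h | h
  · obtain ⟨d, rfl⟩ : ∃ d, k = j + d + 1 := ⟨k - j - 1, by omega⟩
    rw [inner_orbit_add V hV e he0, if_neg (by omega)]
  · subst h
    rw [inner_orbit_self V hV e he, if_pos rfl]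
  · obtain ⟨d, rfl⟩ : ∃ d, j = k + d + 1 := ⟨j - k - 1, by omega⟩
    rw [← inner_conj_symm, inner_orbit_add V hV e he0, if_neg (by omega)]
    simp

/-- The test vectors `y n = ∑_{k ≤ n} ζ^k V^k e`. -/
noncomputable def testVec (V : H →L[ℂ] H) (e : H) (ζ : ℂ) (n : ℕ) : H :=
  ∑ k ∈ Finset.range (n + 1), ζ ^ k • orbit V e k

theorem inner_orbit_testVec (V : H →L[ℂ] H) (hV : adjoint V * V = 1) (e : H) (he : ‖e‖ = 1)
    (he0 : adjoint V e = 0) (ζ : ℂ) (m n : ℕ) :
    inner ℂ (orbit V e m) (testVec V e ζ n) = if m ≤ n then ζ ^ m else 0 := by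
  unfold testVec
  rw [inner_sum]
  simp only [inner_smul_right, inner_orbit V hV e he he0]
  simp only [mul_ite, mul_one, mul_zero]
  rw [Finset.sum_ite_eq]
  simp only [Finset.mem_range]
  by_cases h : m ≤ n
  · rw [if_pos (by omega), if_pos h]
  · rw [if_neg (by omega), if_neg h]

theorem inner_testVec_self (V : H →L[ℂ] H) (hV : adjoint V * V = 1) (e : H) (he : ‖e‖ = 1)
    (he0 : adjoint V e = 0) (ζ : ℂ) (hζ : ‖ζ‖ = 1) (n : ℕ) :
    inner ℂ (testVec V e ζ n) (testVec V e ζ n) = (n : ℂ) + 1 := by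
  have hz : conj ζ * ζ = 1 := by
    rw [← Complex.normSq_eq_conj_mul_self, Complex.normSq_eq_norm_sq, hζ]
    simp
  rw [show inner ℂ (testVec V e ζ n) (testVec V e ζ n)
      = inner ℂ (∑ k ∈ Finset.range (n + 1), ζ ^ k • orbit V e k) (testVec V e ζ n) from rfl,
    sum_inner]
  simp only [inner_smul_left, inner_orbit_testVec V hV e he he0]
  have : ∀ k ∈ Finset.range (n + 1), conj (ζ ^ k) * (if k ≤ n then ζ ^ k else 0) = 1 := by
    intro k hk
    rw [if_pos (by simpa [Nat.lt_succ_iff] using hk), map_pow, ← mul_pow, hz, one_pow]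
  rw [Finset.sum_congr rfl this]
  simp

omit [CompleteSpace H] in
theorem map_testVec (V : H →L[ℂ] H) (e : H) (ζ : ℂ) (n : ℕ) :
    V (testVec V e ζ n) = ∑ k ∈ Finset.range (n + 1), ζ ^ k • orbit V e (k + 1) := by
  unfold testVec
  rw [map_sum]
  refine Finset.sum_congr rfl fun k _ => ?_
  rw [map_smul]
  rfl

theorem inner_testVec_map (V : H →L[ℂ] H) (hV : adjoint V * V = 1) (e : H) (he : ‖e‖ = 1)
    (he0 : adjoint V e = 0) (ζ : ℂ) (hζ : ‖ζ‖ = 1) (n : ℕ) :
    inner ℂ (testVec V e ζ n) (V (testVec V e ζ n)) = (n : ℂ) * conj ζ := by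
  have hz : ζ * conj ζ = 1 := by
    rw [mul_comm, ← Complex.normSq_eq_conj_mul_self, Complex.normSq_eq_norm_sq, hζ]
    simp
  rw [map_testVec, inner_sum]
  have hterm : ∀ k ∈ Finset.range (n + 1),
      inner ℂ (testVec V e ζ n) (ζ ^ k • orbit V e (k + 1)) = if k < n then conj ζ else 0 := by
    intro k _
    rw [inner_smul_right, ← inner_conj_symm, inner_orbit_testVec V hV e he he0]
    by_cases h : k < n
    · rw [if_pos (by omega), if_pos h, map_pow, pow_succ, ← mul_assoc, ← mul_pow, hz, one_pow,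
        one_mul]
    · rw [if_neg (by omega), if_neg h, map_zero, mul_zero]
  rw [Finset.sum_congr rfl hterm, Finset.sum_ite, Finset.sum_const_zero, add_zero,
    Finset.sum_const, nsmul_eq_mul]
  congr 2
  have : (Finset.range (n + 1)).filter (fun k => k < n) = Finset.range n := by
    ext k
    simp only [Finset.mem_filter, Finset.mem_range]
    omega
  rw [this, Finset.card_range]

/-- The value of the quadratic form of `A = V* + γ V` at the test vector. -/
theorem inner_testVec_A (V : H →L[ℂ] H) (hV : adjoint V * V = 1) (e : H) (he : ‖e‖ = 1)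
    (he0 : adjoint V e = 0) (γ ζ : ℂ) (hζ : ‖ζ‖ = 1) (n : ℕ) :
    inner ℂ (testVec V e ζ n) ((adjoint V + γ • V) (testVec V e ζ n))
      = (n : ℂ) * (ζ + γ * conj ζ) := by
  have h1 := inner_testVec_map V hV e he he0 ζ hζ n
  have h2 : inner ℂ (testVec V e ζ n) (adjoint V (testVec V e ζ n)) = (n : ℂ) * ζ := by
    rw [adjoint_inner_right, ← inner_conj_symm, h1]
    simp
  rw [add_apply, smul_apply, inner_add_right, inner_smul_right, h1, h2]
  ring

/-- Piece (A): a bound on the numerical range of `A = V* + γ V` passes to the curve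
`ζ + γ conj ζ`, `‖ζ‖ = 1`. -/
theorem curve_le (V : H →L[ℂ] H) (hV : adjoint V * V = 1) (hnu : V * adjoint V ≠ 1) (γ : ℂ)
    (p : Polynomial ℂ) (M : ℝ)
    (hM : ∀ x : H, ‖x‖ = 1 → ‖p.eval (inner ℂ x ((adjoint V + γ • V) x))‖ ≤ M)
    (ζ : ℂ) (hζ : ‖ζ‖ = 1) : ‖p.eval (ζ + γ * conj ζ)‖ ≤ M := by
  obtain ⟨e, he, he0⟩ := exists_unit_ker V hV hnu
  set w : ℂ := ζ + γ * conj ζ with hw
  -- the unit vectors
  have key : ∀ n : ℕ, ‖p.eval (((n : ℂ) / ((n : ℂ) + 1)) * w)‖ ≤ M := by
    intro n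
    set y := testVec V e ζ n with hy
    have hyy : inner ℂ y y = (n : ℂ) + 1 := inner_testVec_self V hV e he he0 ζ hζ n
    have hnorm : ‖y‖ ^ 2 = (n : ℝ) + 1 := by
      have := congrArg Complex.re hyy
      rw [inner_self_eq_norm_sq_to_K] at this
      have h2 : (((‖y‖ : ℂ)) ^ 2).re = ‖y‖ ^ 2 := by
        rw [← Complex.ofReal_pow, Complex.ofReal_re]
      simp only [Complex.add_re, Complex.natCast_re, Complex.one_re] at this
      rw [← h2]
      exact this
    have hpos : 0 < ‖y‖ := by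
      have : (0 : ℝ) < ‖y‖ ^ 2 := by rw [hnorm]; positivity
      exact lt_of_le_of_ne (norm_nonneg _) (fun h => by rw [← h] at this; simp at this)
    have hx : ‖((‖y‖⁻¹ : ℝ) : ℂ) • y‖ = 1 := by
      rw [norm_smul, Complex.norm_real, norm_inv, norm_norm, inv_mul_cancel₀ hpos.ne']
    have h := hM _ hx
    have hval : inner ℂ (((‖y‖⁻¹ : ℝ) : ℂ) • y) ((adjoint V + γ • V) (((‖y‖⁻¹ : ℝ) : ℂ) • y))
        = ((n : ℂ) / ((n : ℂ) + 1)) * w := by
      rw [map_smul, inner_smul_left, inner_smul_right, inner_testVec_A V hV e he he0 γ ζ hζ n,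
        Complex.conj_ofReal, ← mul_assoc, ← Complex.ofReal_mul]
      have h3 : ‖y‖⁻¹ * ‖y‖⁻¹ = ((n : ℝ) + 1)⁻¹ := by
        rw [← mul_inv, ← sq, hnorm]
      rw [h3]
      push_cast
      rw [div_eq_mul_inv]
      ring
    rw [hval] at h
    exact h
  have hlim : Tendsto (fun n : ℕ => ((n : ℂ) / ((n : ℂ) + 1)) * w) atTop (𝓝 w) := by
    have h1 : Tendsto (fun n : ℕ => (n : ℂ) / ((n : ℂ) + 1)) atTop (𝓝 1) :=
      tendsto_natCast_div_add_atTop (1 : ℂ)
    have h2 := h1.mul_const w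
    rwa [one_mul] at h2
  have hcont : Tendsto (fun n : ℕ => ‖p.eval (((n : ℂ) / ((n : ℂ) + 1)) * w)‖) atTop
      (𝓝 ‖p.eval w‖) :=
    ((continuous_norm.comp p.continuous).tendsto w).comp hlim
  exact le_of_tendsto' hcont key

end Vale.Agent.Lib.P123.H28
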