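import Mathlib

/-!
P123 (Crouzeix), helper28: piece (B) of helper41's theorem on `A = V* + γ V`.
For an isometry `V` (`V* V = 1`) and `‖γ‖ < 1` there is an operator `D` with `‖D‖ ≤ ‖γ‖`,
`D = γ (P + V D V*)` where `P = 1 - V V*`, and hence `V* D = γ D V*`.
-/

namespace Vale.Agent.Lib.P123.H28

open ContinuousLinearMap

variable {H : Type*} [NormedAddCommGroup H] [InnerProductSpace ℂ H] [CompleteSpace H]

/-- An operator with `V* V = 1` preserves inner products. -/
theorem inner_map_map (V : H →L[ℂ] H) (hV : adjoint V * V = 1) (x y : H) :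
    inner ℂ (V x) (V y) = inner ℂ x y := by
  have h : adjoint V (V y) = y := by
    have := congrArg (fun T : H →L[ℂ] H => T y) hV
    simpa using this
  rw [← adjoint_inner_right, h]

/-- An operator with `V* V = 1` preserves norms. -/
theorem norm_map_eq (V : H →L[ℂ] H) (hV : adjoint V * V = 1) (x : H) : ‖V x‖ = ‖x‖ := by
  have h := inner_map_map V hV x x
  have h1 : ‖V x‖ ^ 2 = ‖x‖ ^ 2 := by
    have h2 := congrArg Complex.re h
    rw [inner_self_eq_norm_sq_to_K, inner_self_eq_norm_sq_to_K] at h2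
    exact_mod_cast h2
  exact (sq_eq_sq₀ (norm_nonneg _) (norm_nonneg _)).mp h1

theorem norm_le_one (V : H →L[ℂ] H) (hV : adjoint V * V = 1) : ‖V‖ ≤ 1 := by
  refine opNorm_le_bound _ zero_le_one fun x => ?_
  rw [norm_map_eq V hV, one_mul]

theorem norm_adjoint_le_one (V : H →L[ℂ] H) (hV : adjoint V * V = 1) : ‖adjoint V‖ ≤ 1 := by
  have : ‖adjoint V‖ = ‖V‖ := LinearIsometryEquiv.norm_map adjoint V
  rw [this]
  exact norm_le_one V hV

theorem adjoint_mul_proj (V : H →L[ℂ] H) (hV : adjoint V * V = 1) :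
    adjoint V * (1 - V * adjoint V) = 0 := by
  rw [mul_sub, mul_one, ← mul_assoc, hV, one_mul, sub_self]

/-- Pythagoras for the splitting `x = P x + V V* x`. -/
theorem norm_sq_split (V : H →L[ℂ] H) (hV : adjoint V * V = 1) (x : H) :
    ‖x‖ ^ 2 = ‖(1 - V * adjoint V) x‖ ^ 2 + ‖adjoint V x‖ ^ 2 := by
  have hx : x = (1 - V * adjoint V) x + V (adjoint V x) := by
    simp
  have horth : inner ℂ ((1 - V * adjoint V) x) (V (adjoint V x)) = 0 := by
    rw [← adjoint_inner_left]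
    have := congrArg (fun T : H →L[ℂ] H => T x) (adjoint_mul_proj V hV)
    simp only [mul_apply_eq_comp, zero_apply] at this
    rw [this, inner_zero_left]
  have h := norm_add_sq_eq_norm_sq_add_norm_sq_of_inner_eq_zero _ _ horth
  rw [← hx, norm_map_eq V hV] at h
  rw [sq, sq, sq, h]

/-- `‖P x + V (D (V* x))‖ ≤ max 1 ‖D‖ * ‖x‖`. -/
theorem norm_step_le (V : H →L[ℂ] H) (hV : adjoint V * V = 1) (D : H →L[ℂ] H) (x : H) :
    ‖((1 - V * adjoint V) + V * D * adjoint V) x‖ ≤ max 1 ‖D‖ * ‖x‖ := by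
  have horth : inner ℂ ((1 - V * adjoint V) x) (V (D (adjoint V x))) = 0 := by
    rw [← adjoint_inner_left]
    have := congrArg (fun T : H →L[ℂ] H => T x) (adjoint_mul_proj V hV)
    simp only [mul_apply_eq_comp, zero_apply] at this
    rw [this, inner_zero_left]
  have h := norm_add_sq_eq_norm_sq_add_norm_sq_of_inner_eq_zero _ _ horth
  rw [norm_map_eq V hV] at h
  have hs := norm_sq_split V hV x
  have hD : ‖D (adjoint V x)‖ ≤ ‖D‖ * ‖adjoint V x‖ := le_opNorm D _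
  have hm1 : (1 : ℝ) ≤ max 1 ‖D‖ := le_max_left _ _
  have hm2 : ‖D‖ ≤ max 1 ‖D‖ := le_max_right _ _
  have hm0 : (0 : ℝ) ≤ max 1 ‖D‖ := le_trans zero_le_one hm1
  have e : ((1 - V * adjoint V) + V * D * adjoint V) x
      = (1 - V * adjoint V) x + V (D (adjoint V x)) := by
    simp
  rw [e]
  have hsq : ‖(1 - V * adjoint V) x + V (D (adjoint V x))‖ ^ 2 ≤ (max 1 ‖D‖ * ‖x‖) ^ 2 := by
    rw [sq, h, mul_pow, hs]
    have h1 : ‖D (adjoint V x)‖ * ‖D (adjoint V x)‖ ≤ (max 1 ‖D‖) ^ 2 * ‖adjoint V x‖ ^ 2 := by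
      have h2 : ‖D (adjoint V x)‖ ≤ max 1 ‖D‖ * ‖adjoint V x‖ :=
        hD.trans (mul_le_mul_of_nonneg_right hm2 (norm_nonneg _))
      have := mul_le_mul h2 h2 (norm_nonneg _) (mul_nonneg hm0 (norm_nonneg _))
      nlinarith [this]
    have h3 : ‖(1 - V * adjoint V) x‖ * ‖(1 - V * adjoint V) x‖
        ≤ (max 1 ‖D‖) ^ 2 * ‖(1 - V * adjoint V) x‖ ^ 2 := by
      have : (1 : ℝ) ≤ (max 1 ‖D‖) ^ 2 := one_le_pow₀ hm1
      nlinarith [sq_nonneg ‖(1 - V * adjoint V) x‖]
    nlinarith [h1, h3]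
  exact le_of_sq_le_sq hsq (mul_nonneg hm0 (norm_nonneg _))

/-- Piece (B): the operator `D`. -/
theorem exists_fixD (V : H →L[ℂ] H) (hV : adjoint V * V = 1) (γ : ℂ) (hγ : ‖γ‖ < 1) :
    ∃ D : H →L[ℂ] H, ‖D‖ ≤ ‖γ‖ ∧ D = γ • ((1 - V * adjoint V) + V * D * adjoint V) ∧
      adjoint V * D = γ • (D * adjoint V) := by
  classical
  let T : (H →L[ℂ] H) → (H →L[ℂ] H) := fun X => γ • ((1 - V * adjoint V) + V * X * adjoint V)
  have hT : ContractingWith ‖γ‖₊ T := by
    refine ⟨by exact_mod_cast hγ, ?_⟩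
    refine LipschitzWith.of_dist_le_mul fun X Y => ?_
    have e : T X - T Y = γ • (V * (X - Y) * adjoint V) := by
      simp only [T]
      rw [← smul_sub]
      congr 1
      noncomm_ring
    rw [dist_eq_norm, dist_eq_norm, e, norm_smul, coe_nnnorm]
    refine mul_le_mul_of_nonneg_left ?_ (norm_nonneg _)
    calc ‖V * (X - Y) * adjoint V‖ ≤ ‖V * (X - Y)‖ * ‖adjoint V‖ := norm_mul_le _ _
      _ ≤ (‖V‖ * ‖X - Y‖) * ‖adjoint V‖ :=
          mul_le_mul_of_nonneg_right (norm_mul_le _ _) (norm_nonneg _)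
      _ ≤ (1 * ‖X - Y‖) * 1 := by
          refine mul_le_mul (mul_le_mul_of_nonneg_right (norm_le_one V hV) (norm_nonneg _))
            (norm_adjoint_le_one V hV) (norm_nonneg _) (by positivity)
      _ = ‖X - Y‖ := by ring
  obtain ⟨D, hD⟩ : ∃ D, Function.IsFixedPt T D :=
    ⟨ContractingWith.fixedPoint T hT, ContractingWith.fixedPoint_isFixedPt hT⟩
  have hDeq : D = γ • ((1 - V * adjoint V) + V * D * adjoint V) := hD.symm
  have hstep : ‖(1 - V * adjoint V) + V * D * adjoint V‖ ≤ max 1 ‖D‖ :=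
    opNorm_le_bound _ (le_trans zero_le_one (le_max_left _ _)) (norm_step_le V hV D)
  have hb : ‖D‖ ≤ ‖γ‖ * max 1 ‖D‖ := by
    calc ‖D‖ = ‖γ • ((1 - V * adjoint V) + V * D * adjoint V)‖ := by rw [← hDeq]
      _ = ‖γ‖ * ‖(1 - V * adjoint V) + V * D * adjoint V‖ := norm_smul _ _
      _ ≤ ‖γ‖ * max 1 ‖D‖ := mul_le_mul_of_nonneg_left hstep (norm_nonneg _)
  have hD1 : ‖D‖ ≤ 1 := by
    by_contra hcon
    replace hcon := not_le.mp hcon
    rw [max_eq_right hcon.le] at hb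
    have : ‖γ‖ * ‖D‖ < 1 * ‖D‖ := mul_lt_mul_of_pos_right hγ (lt_trans zero_lt_one hcon)
    linarith
  refine ⟨D, ?_, hDeq, ?_⟩
  · rw [max_eq_left hD1, mul_one] at hb
    exact hb
  · have h0 := adjoint_mul_proj V hV
    calc adjoint V * D = adjoint V * (γ • ((1 - V * adjoint V) + V * D * adjoint V)) := by
          rw [← hDeq]
      _ = γ • (adjoint V * (1 - V * adjoint V) + (adjoint V * V) * D * adjoint V) := by
          rw [mul_smul_comm, mul_add]
          simp only [mul_assoc]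
      _ = γ • (D * adjoint V) := by rw [h0, hV, zero_add, one_mul]

end Vale.Agent.Lib.P123.H28
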