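import Vale.Agent.Lib.P123.helper28.Curve

/-!
P123 (Crouzeix), helper28: second, independent formalization of helper41's theorem (report 1772).

For a non-unitary isometry `V` on a complex Hilbert space and `‖γ‖ < 1`, the operator
`A = V* + γ V` satisfies `‖p(A)‖ ≤ (1 + ‖γ‖) sup_{W(A)} |p|` for every polynomial `p`.

Proof: `U = [[V, P], [0, V*]]` (`P = 1 - V V*`) is unitary on `H ⊕ H`, `N = U* + γ U` is normal with
`‖p(N)‖ ≤ sup_{|ζ| = 1} |p(conj ζ + γ ζ)|`, and `[1, -D V*] N = A [1, -D V*]` for the operator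
`D` of `FixD.lean`; the curve lies in the closure of the numerical range (`Curve.lean`).
-/

namespace Vale.Agent.Lib.P123.H28

open ContinuousLinearMap
open scoped ComplexConjugate

/-- The spectral-theorem step: for a unitary `U` in a C⋆-algebra and `N = U* + γ U`,
`‖p(N)‖ ≤ sup_{|ζ| = 1} |p(conj ζ + γ ζ)|`. -/
theorem norm_aeval_unitary_le {B : Type*} [CStarAlgebra B] (U : B) (hU : U ∈ unitary B) (γ : ℂ)
    (p : Polynomial ℂ) (M : ℝ) (hM0 : 0 ≤ M)
    (hM : ∀ ζ : ℂ, ‖ζ‖ = 1 → ‖p.eval (conj ζ + γ * ζ)‖ ≤ M) :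
    ‖Polynomial.aeval (star U + γ • U) p‖ ≤ M := by
  have hn : IsStarNormal U := isStarNormal_of_mem_unitary hU
  have hf : cfc (fun z : ℂ => star z + γ * z) U = star U + γ • U := by
    rw [cfc_add (a := U) (fun z : ℂ => star z) (fun z : ℂ => γ * z), cfc_star_id (R := ℂ) (a := U),
      cfc_const_mul_id γ U]
  rw [← hf, ← cfc_map_polynomial p (fun z : ℂ => star z + γ * z) U]
  refine norm_cfc_le hM0 fun x hx => ?_
  have hx1 : x ∈ Metric.sphere (0 : ℂ) 1 := spectrum.subset_circle_of_unitary hU hx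
  exact hM x (by simpa using hx1)

variable {H : Type*} [NormedAddCommGroup H] [InnerProductSpace ℂ H] [CompleteSpace H]

/-- The unitary dilation `U = [[V, P], [0, V*]]`, `P = 1 - V V*`. -/
noncomputable def dil (V : H →L[ℂ] H) : CStarMatrix (Fin 2) (Fin 2) (H →L[ℂ] H) :=
  CStarMatrix.ofMatrix (Matrix.of ![![V, 1 - V * adjoint V], ![0, adjoint V]])

theorem dil_00 (V : H →L[ℂ] H) : dil V 0 0 = V := rfl
theorem dil_01 (V : H →L[ℂ] H) : dil V 0 1 = 1 - V * adjoint V := rfl
theorem dil_10 (V : H →L[ℂ] H) : dil V 1 0 = 0 := rfl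
theorem dil_11 (V : H →L[ℂ] H) : dil V 1 1 = adjoint V := rfl

theorem proj_mul (V : H →L[ℂ] H) (hV : adjoint V * V = 1) : (1 - V * adjoint V) * V = 0 := by
  rw [sub_mul, one_mul, mul_assoc, hV, mul_one, sub_self]

theorem proj_mul_proj (V : H →L[ℂ] H) (hV : adjoint V * V = 1) :
    (1 - V * adjoint V) * (1 - V * adjoint V) = 1 - V * adjoint V := by
  rw [mul_sub, mul_one, ← mul_assoc, proj_mul V hV, zero_mul, sub_zero]

theorem star_proj (V : H →L[ℂ] H) : star (1 - V * adjoint V) = 1 - V * adjoint V := by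
  rw [star_sub, star_one, star_mul, ← star_eq_adjoint, star_star]

theorem dil_mem_unitary (V : H →L[ℂ] H) (hV : adjoint V * V = 1) :
    dil V ∈ unitary (CStarMatrix (Fin 2) (Fin 2) (H →L[ℂ] H)) := by
  have h1 := adjoint_mul_proj V hV
  have h2 := proj_mul V hV
  have h3 := proj_mul_proj V hV
  have h4 := star_proj V
  have hs : star V = adjoint V := star_eq_adjoint V
  have hss : star (adjoint V) = V := by rw [← hs, star_star]
  rw [Unitary.mem_iff]
  constructor
  · refine CStarMatrix.ext fun i j => ?_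
    fin_cases i <;> fin_cases j
    · simp [CStarMatrix.mul_apply, CStarMatrix.star_apply, Fin.sum_univ_two, dil_00, dil_10, hs,
        hV]
    · simp [CStarMatrix.mul_apply, CStarMatrix.star_apply, Fin.sum_univ_two, dil_00, dil_01,
        dil_10, dil_11, hs, h1]
    · simp [CStarMatrix.mul_apply, CStarMatrix.star_apply, Fin.sum_univ_two, dil_00, dil_01,
        dil_10, dil_11, h4, h2]
    · simp [CStarMatrix.mul_apply, CStarMatrix.star_apply, Fin.sum_univ_two, dil_01,
        dil_11, h4, h3, hss]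
  · refine CStarMatrix.ext fun i j => ?_
    fin_cases i <;> fin_cases j
    · simp [CStarMatrix.mul_apply, CStarMatrix.star_apply, Fin.sum_univ_two, dil_00, dil_01, hs,
        h4, h3]
    · simp [CStarMatrix.mul_apply, CStarMatrix.star_apply, Fin.sum_univ_two, dil_00, dil_01,
        dil_10, dil_11, hss, h2]
    · simp [CStarMatrix.mul_apply, CStarMatrix.star_apply, Fin.sum_univ_two, dil_00, dil_01,
        dil_10, dil_11, h4, h1]
    · simp [CStarMatrix.mul_apply, CStarMatrix.star_apply, Fin.sum_univ_two, dil_10,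
        dil_11, hss, hV]

/-- The first row of `[1, -D V*] M`, first entry. -/
noncomputable def rowF (V D : H →L[ℂ] H) (M : CStarMatrix (Fin 2) (Fin 2) (H →L[ℂ] H)) :
    H →L[ℂ] H :=
  M 0 0 - (D * adjoint V) * M 1 0

theorem rowF_add (V D : H →L[ℂ] H) (M₁ M₂ : CStarMatrix (Fin 2) (Fin 2) (H →L[ℂ] H)) :
    rowF V D (M₁ + M₂) = rowF V D M₁ + rowF V D M₂ := by
  simp only [rowF, CStarMatrix.add_apply, mul_add]
  abel

theorem rowF_smul (V D : H →L[ℂ] H) (c : ℂ) (M : CStarMatrix (Fin 2) (Fin 2) (H →L[ℂ] H)) :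
    rowF V D (c • M) = c • rowF V D M := by
  simp only [rowF, CStarMatrix.smul_apply, mul_smul_comm, smul_sub]

theorem rowF_one (V D : H →L[ℂ] H) : rowF V D 1 = 1 := by
  simp [rowF]

/-- The intertwining relation `[1, -D V*] N = A [1, -D V*]`, in the form used below. -/
theorem rowF_mul (V : H →L[ℂ] H) (hV : adjoint V * V = 1) (γ : ℂ) (D : H →L[ℂ] H)
    (hD : D = γ • ((1 - V * adjoint V) + V * D * adjoint V))
    (hVD : adjoint V * D = γ • (D * adjoint V))
    (M : CStarMatrix (Fin 2) (Fin 2) (H →L[ℂ] H)) :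
    rowF V D ((star (dil V) + γ • dil V) * M) = (adjoint V + γ • V) * rowF V D M := by
  have h1 := adjoint_mul_proj V hV
  have h4 := star_proj V
  have hs : star V = adjoint V := star_eq_adjoint V
  have hss : star (adjoint V) = V := by rw [← hs, star_star]
  set N := star (dil V) + γ • dil V with hN
  have n00 : N 0 0 = adjoint V + γ • V := by
    simp [hN, CStarMatrix.star_apply, dil_00, hs]
  have n01 : N 0 1 = γ • (1 - V * adjoint V) := by
    simp [hN, CStarMatrix.star_apply, dil_10, dil_01]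
  have n10 : N 1 0 = 1 - V * adjoint V := by
    simp [hN, CStarMatrix.star_apply, dil_10, dil_01, h4]
  have n11 : N 1 1 = V + γ • adjoint V := by
    simp [hN, CStarMatrix.star_apply, dil_11, hss]
  -- the two entry identities
  have e1 : N 0 0 - (D * adjoint V) * N 1 0 = adjoint V + γ • V := by
    rw [n00, n10, mul_assoc, h1, mul_zero, sub_zero]
  have e2 : N 0 1 - (D * adjoint V) * N 1 1 = -((adjoint V + γ • V) * (D * adjoint V)) := by
    rw [n01, n11]
    have hDV : (D * adjoint V) * (V + γ • adjoint V) = D + γ • (D * adjoint V * adjoint V) := by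
      rw [mul_add, mul_assoc, hV, mul_one, mul_smul_comm]
    have hAD : (adjoint V + γ • V) * (D * adjoint V)
        = γ • (D * adjoint V * adjoint V) + γ • (V * D * adjoint V) := by
      rw [add_mul, ← mul_assoc, hVD, smul_mul_assoc, smul_mul_assoc, ← mul_assoc]
    rw [hDV, hAD]
    have hD' : γ • (1 - V * adjoint V) = D - γ • (V * D * adjoint V) := by
      have h := hD
      rw [smul_add] at h
      exact eq_sub_of_add_eq h.symm
    rw [hD']
    abel
  simp only [rowF, CStarMatrix.mul_apply, Fin.sum_univ_two]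
  have : N 0 0 * M 0 0 + N 0 1 * M 1 0 - D * adjoint V * (N 1 0 * M 0 0 + N 1 1 * M 1 0)
      = (N 0 0 - (D * adjoint V) * N 1 0) * M 0 0 + (N 0 1 - (D * adjoint V) * N 1 1) * M 1 0 := by
    noncomm_ring
  rw [this, e1, e2]
  noncomm_ring

theorem rowF_pow (V : H →L[ℂ] H) (hV : adjoint V * V = 1) (γ : ℂ) (D : H →L[ℂ] H)
    (hD : D = γ • ((1 - V * adjoint V) + V * D * adjoint V))
    (hVD : adjoint V * D = γ • (D * adjoint V)) (k : ℕ) :
    rowF V D ((star (dil V) + γ • dil V) ^ k) = (adjoint V + γ • V) ^ k := by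
  induction k with
  | zero => rw [pow_zero, pow_zero, rowF_one]
  | succ k ih => rw [pow_succ', rowF_mul V hV γ D hD hVD, ih, ← pow_succ']

theorem rowF_aeval (V : H →L[ℂ] H) (hV : adjoint V * V = 1) (γ : ℂ) (D : H →L[ℂ] H)
    (hD : D = γ • ((1 - V * adjoint V) + V * D * adjoint V))
    (hVD : adjoint V * D = γ • (D * adjoint V)) (p : Polynomial ℂ) :
    rowF V D (Polynomial.aeval (star (dil V) + γ • dil V) p)
      = Polynomial.aeval (adjoint V + γ • V) p := by
  induction p using Polynomial.induction_on' with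
  | add p q hp hq => rw [map_add, map_add, rowF_add, hp, hq]
  | monomial n a =>
    rw [Polynomial.aeval_monomial, Polynomial.aeval_monomial, ← Algebra.smul_def,
      ← Algebra.smul_def, rowF_smul, rowF_pow V hV γ D hD hVD]

/-- **Crouzeix's inequality for `A = V* + γ V`**, `V` a non-unitary isometry, `‖γ‖ < 1`, with the
constant `1 + ‖γ‖ < 2`: if `|p| ≤ M` on the numerical range `{⟪x, A x⟫ : ‖x‖ = 1}` of `A`, then
`‖p(A)‖ ≤ (1 + ‖γ‖) M`. -/
theorem crouzeix_isometry (V : H →L[ℂ] H) (hV : adjoint V * V = 1) (hnu : V * adjoint V ≠ 1)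
    (γ : ℂ) (hγ : ‖γ‖ < 1) (p : Polynomial ℂ) (M : ℝ)
    (hM : ∀ x : H, ‖x‖ = 1 → ‖p.eval (inner ℂ x ((adjoint V + γ • V) x))‖ ≤ M) :
    ‖Polynomial.aeval (adjoint V + γ • V) p‖ ≤ (1 + ‖γ‖) * M := by
  obtain ⟨D, hDn, hD, hVD⟩ := exists_fixD V hV γ hγ
  have hcurve : ∀ ζ : ℂ, ‖ζ‖ = 1 → ‖p.eval (conj ζ + γ * ζ)‖ ≤ M := by
    intro ζ hζ
    have := curve_le V hV hnu γ p M hM (conj ζ) (by rwa [RCLike.norm_conj])
    rwa [Complex.conj_conj] at this
  have hM0 : 0 ≤ M := le_trans (norm_nonneg _) (hcurve 1 (by simp))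
  have hN := norm_aeval_unitary_le (dil V) (dil_mem_unitary V hV) γ p M hM0 hcurve
  set Q := Polynomial.aeval (star (dil V) + γ • dil V) p with hQ
  have hrow : Polynomial.aeval (adjoint V + γ • V) p = Q 0 0 - (D * adjoint V) * Q 1 0 :=
    (rowF_aeval V hV γ D hD hVD p).symm
  have h00 : ‖Q 0 0‖ ≤ M := le_trans CStarMatrix.norm_entry_le_norm hN
  have h10 : ‖Q 1 0‖ ≤ M := le_trans CStarMatrix.norm_entry_le_norm hN
  have hDV : ‖D * adjoint V‖ ≤ ‖γ‖ := by
    calc ‖D * adjoint V‖ ≤ ‖D‖ * ‖adjoint V‖ := norm_mul_le _ _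
      _ ≤ ‖γ‖ * 1 := mul_le_mul hDn (norm_adjoint_le_one V hV) (norm_nonneg _) (norm_nonneg _)
      _ = ‖γ‖ := mul_one _
  rw [hrow]
  calc ‖Q 0 0 - (D * adjoint V) * Q 1 0‖ ≤ ‖Q 0 0‖ + ‖(D * adjoint V) * Q 1 0‖ := norm_sub_le _ _
    _ ≤ ‖Q 0 0‖ + ‖D * adjoint V‖ * ‖Q 1 0‖ := by gcongr; exact norm_mul_le _ _
    _ ≤ M + ‖γ‖ * M := by
        refine add_le_add h00 (mul_le_mul hDV h10 (norm_nonneg _) (norm_nonneg _))
    _ = (1 + ‖γ‖) * M := by ring

end Vale.Agent.Lib.P123.H28
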